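import Mathlib

/-!
# P057: divergent sets whose gap sequence is piecewise monotone

If the increasing enumeration has gaps monotone on few blocks and no progression of length `k`,
each gap value repeats at most `k` times in a block, so the counting function is `O(√(k J x))`,
`J` being the number of blocks below `x`.
-/

namespace Vale.Agent.Results.P057.FewGapRunsAP

open Finset

/-- Positive integers with every value taken at most `k` times have a quadratic sum. -/
theorem card_sq_le {ι : Type*} [DecidableEq ι] (f : ι → ℕ) (k : ℕ) (s : Finset ι)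
    (hpos : ∀ i ∈ s, 0 < f i) (hfib : ∀ v, (s.filter fun i => f i = v).card ≤ k) :
    s.card ^ 2 ≤ 2 * k * ∑ i ∈ s, f i := by
  induction s using Finset.strongInduction with
  | _ s ih =>
    rcases s.eq_empty_or_nonempty with rfl | hne
    · simp
    obtain ⟨i, hi, hmax⟩ := s.exists_max_image f hne
    have hle : s.card ≤ k * f i := by
      have h := Finset.card_le_mul_card_image (f := f) s k fun v _ => hfib v
      refine h.trans (Nat.mul_le_mul_left k ?_)
      calc (s.image f).card ≤ (Finset.Icc 1 (f i)).card := by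
            refine Finset.card_le_card fun v hv => ?_
            obtain ⟨j, hj, rfl⟩ := Finset.mem_image.1 hv
            exact Finset.mem_Icc.2 ⟨hpos j hj, hmax j hj⟩
        _ = f i := by simp
    have hrec := ih (s.erase i) (Finset.erase_ssubset hi)
      (fun j hj => hpos j (Finset.mem_of_mem_erase hj))
      fun v => (Finset.card_le_card (Finset.filter_subset_filter _ (Finset.erase_subset i s))).trans
        (hfib v)
    have hc : (s.erase i).card + 1 = s.card := Finset.card_erase_add_one hi
    rw [← Finset.add_sum_erase s f hi]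
    nlinarith

/-- Without a progression, a monotone block repeats each gap value at most `k` times. -/
theorem fiber_le {a : ℕ → ℕ} (ha : StrictMono a) {k : ℕ} {s : Finset ℕ} {lo hi : ℕ}
    (hs : s ⊆ Finset.Ico lo hi)
    (hmono : MonotoneOn (fun n => a (n + 1) - a n) (Set.Ico lo hi) ∨
      AntitoneOn (fun n => a (n + 1) - a n) (Set.Ico lo hi))
    (hAP : ¬ ∃ b D, 0 < D ∧ ∀ j < k, b + j * D ∈ Set.range a) (v : ℕ) :
    (s.filter fun n => a (n + 1) - a n = v).card ≤ k := by
  by_contra h
  set F := s.filter fun n => a (n + 1) - a n = v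
  have hne : F.Nonempty := Finset.card_pos.1 (by omega)
  set p := F.min' hne
  set q := F.max' hne
  have hmem : ∀ n ∈ F, n ∈ Set.Ico lo hi ∧ a (n + 1) - a n = v := fun n hn =>
    ⟨by simpa using hs (Finset.mem_filter.1 hn).1, (Finset.mem_filter.1 hn).2⟩
  obtain ⟨hp, hpv⟩ := hmem p (F.min'_mem hne)
  obtain ⟨hq, hqv⟩ := hmem q (F.max'_mem hne)
  have hsub : F ⊆ Finset.Icc p q := fun n hn =>
    Finset.mem_Icc.2 ⟨F.min'_le n hn, F.le_max' n hn⟩
  have hlen : p + k ≤ q := by
    have := Finset.card_le_card hsub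
    simp at this
    omega
  have hconst : ∀ n, p ≤ n → n ≤ q → a (n + 1) - a n = v := by
    intro n h1 h2
    have hn : n ∈ Set.Ico lo hi := ⟨hp.1.trans h1, h2.trans_lt hq.2⟩
    rcases hmono with hm | hm
    · have e1 := hm hp hn h1
      have e2 := hm hn hq h2
      simp only at e1 e2
      omega
    · have e1 := hm hp hn h1
      have e2 := hm hn hq h2
      simp only at e1 e2
      omega
  have hstep : ∀ j ≤ k, a p + j * v = a (p + j) := by
    intro j hj
    induction j with
    | zero => simp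
    | succ j ih =>
      have h1 := hconst (p + j) (by omega) (by omega)
      have h2 := ha (show p + j < p + j + 1 by omega)
      have h3 := ih (by omega)
      rw [Nat.succ_mul]
      show a p + (j * v + v) = a (p + j + 1)
      omega
  have hv : 0 < v := by
    have := ha (show p < p + 1 by omega)
    omega
  exact hAP ⟨a p, v, hv, fun j hj => ⟨p + j, (hstep j hj.le).symm⟩⟩

/-- The number of terms up to a bound. -/
theorem card_bound {a t : ℕ → ℕ} (ha : StrictMono a) (ht : StrictMono t) (h0 : t 0 = 0)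
    {k : ℕ} (hmono : ∀ j, MonotoneOn (fun n => a (n + 1) - a n) (Set.Ico (t j) (t (j + 1))) ∨
      AntitoneOn (fun n => a (n + 1) - a n) (Set.Ico (t j) (t (j + 1))))
    (hAP : ¬ ∃ b D, 0 < D ∧ ∀ j < k, b + j * D ∈ Set.range a) {n X : ℕ} (hX : a n ≤ X) :
    n ^ 2 ≤ 2 * k * {j | a (t j) ≤ X}.ncard * X := by
  have hfin : {j | a (t j) ≤ X}.Finite :=
    (Set.finite_Iic X).subset fun j (hj : a (t j) ≤ X) =>
      Set.mem_Iic.2 (((ht.id_le j).trans (ha.id_le _)).trans hj)
  set J := hfin.toFinset
  let blk : ℕ → ℕ := fun m => Nat.findGreatest (fun j => t j ≤ m) m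
  have hlo : ∀ m, t (blk m) ≤ m := fun m =>
    Nat.findGreatest_spec (P := fun j => t j ≤ m) (Nat.zero_le m) (by simp [h0])
  have hhi : ∀ m, m < t (blk m + 1) := fun m => by
    by_contra h
    push Not at h
    exact Nat.findGreatest_is_greatest (Nat.lt_succ_self (blk m)) ((ht.id_le _).trans h) h
  have hmaps : ∀ m ∈ Finset.range n, blk m ∈ J := fun m hm =>
    hfin.mem_toFinset.2
      ((ha.monotone ((hlo m).trans (Finset.mem_range.1 hm).le)).trans hX)
  set s := fun j => (Finset.range n).filter fun m => blk m = j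
  have hsum : ∑ j ∈ J, (s j).card = n := by
    rw [← Finset.card_eq_sum_card_fiberwise hmaps, Finset.card_range]
  have hblock : ∀ j ∈ J, (s j).card ^ 2 ≤ 2 * k * ∑ m ∈ s j, (a (m + 1) - a m) := fun j _ =>
    card_sq_le _ k _ (fun m _ => Nat.sub_pos_of_lt (ha (Nat.lt_succ_self m))) fun v =>
      fiber_le ha (fun m hm => Finset.mem_Ico.2 ((Finset.mem_filter.1 hm).2 ▸ ⟨hlo m, hhi m⟩))
        (hmono j) hAP v
  have htel : ∑ j ∈ J, ∑ m ∈ s j, (a (m + 1) - a m) ≤ X := by
    rw [Finset.sum_fiberwise_of_maps_to hmaps, Finset.sum_range_tsub ha.monotone]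
    omega
  rw [Set.ncard_eq_toFinset_card _ hfin]
  calc n ^ 2 = (∑ j ∈ J, (s j).card) ^ 2 := by rw [hsum]
    _ ≤ J.card * ∑ j ∈ J, (s j).card ^ 2 := sq_sum_le_card_mul_sum_sq
    _ ≤ J.card * (2 * k * X) := by
        refine Nat.mul_le_mul_left _ ((Finset.sum_le_sum hblock).trans ?_)
        rw [← Finset.mul_sum]
        exact Nat.mul_le_mul_left _ htel
    _ = 2 * k * J.card * X := by ring

/-- Sets with divergent reciprocal sum whose gaps are monotone on few blocks contain
progressions of every length. -/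
theorem result : ∀ a t : ℕ → ℕ, StrictMono a → 0 < a 0 → StrictMono t → t 0 = 0 →
    (∀ j, MonotoneOn (fun n => a (n + 1) - a n) (Set.Ico (t j) (t (j + 1))) ∨
      AntitoneOn (fun n => a (n + 1) - a n) (Set.Ico (t j) (t (j + 1)))) →
    Summable (fun i : ℕ => Real.sqrt (({j | a (t j) ≤ 2 ^ i}.ncard : ℝ) / 2 ^ i)) →
    ¬ Summable (fun n => (1 : ℝ) / a n) →
    ∀ k : ℕ, ∃ b D, 0 < D ∧ ∀ j < k, b + j * D ∈ Set.range a := by
  intro a t ha hpos ht h0 hmono hsum hdiv k
  by_contra hAP
  apply hdiv
  set g : ℕ → ℝ := fun i => Real.sqrt (({j | a (t j) ≤ 2 ^ i}.ncard : ℝ) / 2 ^ i)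
  set c : ℝ := Real.sqrt (2 * k)
  set u : ℕ → ℝ := fun i => (1 / 2) ^ i + 2 * c * g (i + 1)
  have hu : Summable u :=
    summable_geometric_two.add (((summable_nat_add_iff 1).2 hsum).mul_left (2 * c))
  have hu0 : ∀ i, 0 ≤ u i := fun i => by positivity
  refine summable_of_sum_le (c := ∑' i, u i) (fun n => by positivity) fun S => ?_
  let lev : ℕ → ℕ := fun n => Nat.log 2 (a n)
  rw [← Finset.sum_fiberwise_of_maps_to (g := lev) (t := S.image lev)
    fun n hn => Finset.mem_image_of_mem lev hn]
  refine (Finset.sum_le_sum fun i _ => ?_).trans (hu.sum_le_tsum _ fun i _ => hu0 i)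
  set F := S.filter fun n => lev n = i
  rcases F.eq_empty_or_nonempty with hF | hF
  · simp [hF, hu0]
  obtain ⟨N, hN, hmax⟩ := F.exists_max_image id hF
  have hap : ∀ n, a n ≠ 0 := fun n => (hpos.trans_le (ha.monotone (Nat.zero_le n))).ne'
  have hmem : ∀ n ∈ F, 2 ^ i ≤ a n ∧ a n ≤ 2 ^ (i + 1) := fun n hn => by
    have he : Nat.log 2 (a n) = i := (Finset.mem_filter.1 hn).2
    rw [← he]
    exact ⟨Nat.pow_log_le_self 2 (hap n), (Nat.lt_pow_succ_log_self (by norm_num) (a n)).le⟩
  have hNb : (N : ℝ) ≤ c * g (i + 1) * 2 ^ (i + 1) := by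
    have h := card_bound ha ht h0 hmono hAP (hmem N hN).2
    refine abs_le_of_sq_le_sq' ?_ (by positivity) |>.2
    rw [mul_pow, mul_pow, Real.sq_sqrt (by positivity), Real.sq_sqrt (by positivity)]
    calc (N : ℝ) ^ 2 ≤ ((2 * k * {j | a (t j) ≤ 2 ^ (i + 1)}.ncard * 2 ^ (i + 1) : ℕ) : ℝ) := by
          exact_mod_cast h
      _ = _ := by
          push_cast
          field_simp
  have hcard : (F.card : ℝ) ≤ N + 1 := by
    have : F.card ≤ (Finset.range (N + 1)).card :=
      Finset.card_le_card fun n hn => Finset.mem_range.2 (Nat.lt_succ_of_le (hmax n hn))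
    rw [Finset.card_range] at this
    exact_mod_cast this
  calc ∑ n ∈ F, (1 : ℝ) / a n ≤ ∑ _n ∈ F, (1 : ℝ) / 2 ^ i := by
        refine Finset.sum_le_sum fun n hn => one_div_le_one_div_of_le (by positivity) ?_
        exact_mod_cast (hmem n hn).1
    _ = (F.card : ℝ) / 2 ^ i := by rw [Finset.sum_const, nsmul_eq_mul]; ring
    _ ≤ (c * g (i + 1) * 2 ^ (i + 1) + 1) / 2 ^ i := by gcongr; linarith
    _ = u i := by
        simp only [u, one_div_pow]
        field_simp
        ring

end Vale.Agent.Results.P057.FewGapRunsAP
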