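import Mathlib
import Vale.Agent.P057.Rankin.Asymp

/-!
A smaller constant in Rankin's lower bound for progression-free sets, for `k` in the upper part of
each dyadic range.
-/

namespace Vale.Agent.Results.P057.RankinConstantImproved

open Finset

/-- For `n ≥ 3` and `k ≥ 3 · 2 ^ (n - 2) + 2` the constant in front of `(log₂ N) ^ (1 / n)` can be
lowered below `n 2 ^ ((n - 1) / 2)`. -/
theorem result : ∀ n k : ℕ, 3 ≤ n → 3 * 2 ^ (n - 2) + 2 ≤ k →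
    (n : ℝ) * (Real.logb 2 ((2 ^ (n - 2) + 1).choose ((2 ^ (n - 2) + 1) / 2) : ℕ) *
        2 ^ (1 + (n - 1).choose 2)) ^ (1 / (n : ℝ)) < n * (2 : ℝ) ^ (((n : ℝ) - 1) / 2) ∧
    ∀ ε : ℝ, 0 < ε → ∃ N₀ : ℕ, ∀ N : ℕ, N₀ ≤ N → ∃ A : Finset ℕ, A ⊆ Icc 1 N ∧
      (¬ ∃ a d : ℕ, 0 < d ∧ ∀ i < k, a + i * d ∈ A) ∧
      (N : ℝ) * (2 : ℝ) ^ (-(((n : ℝ) *
          (Real.logb 2 ((2 ^ (n - 2) + 1).choose ((2 ^ (n - 2) + 1) / 2) : ℕ) *
            2 ^ (1 + (n - 1).choose 2)) ^ (1 / (n : ℝ)) + ε) *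
          Real.logb 2 N ^ (1 / (n : ℝ)))) ≤ (A.card : ℝ) := fun _ _ hn hk =>
  ⟨Vale.Agent.P057.Rankin.rate_lt hn, fun _ hε => Vale.Agent.P057.Rankin.rankin_constant hn hk hε⟩

end Vale.Agent.Results.P057.RankinConstantImproved
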